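import Vale.Agent.P038.H853.Star

set_option autoImplicit false

/-! Seymour: the comparison of the outer and the inner minimum -/

set_option linter.unusedSectionVars false
set_option linter.unusedVariables false

open Classical

namespace Vale.Agent.P038.H853

variable {V : Type*} [Fintype V]

theorem sum_row (z : V) (T : V → Prop) :
    ∑ a : V, ∑ b : V, ii (a = z ∧ T b) = S T := by
  rw [Finset.sum_eq_single z]
  · simp [S]
  · intro a _ ha
    simp [ii, ha]
  · simp

theorem sum_col (z : V) (T : V → Prop) :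
    ∑ a : V, ∑ b : V, ii (b = z ∧ T a) = S T := by
  unfold S
  refine Finset.sum_congr rfl fun a _ => ?_
  rw [Finset.sum_eq_single z]
  · simp
  · intro b _ hb
    simp [ii, hb]
  · simp

theorem rh_of_min {N B U : V → V → Prop} (hF : Feas N B U)
    (hmin : ∀ B' U', Feas N B' U' → fo N B U ≤ fo N B' U') : RH N B U := by
  intro z T hT
  have hF' : Feas N (fun a b => B a b ∨ (a = z ∧ T b)) U := by
    refine ⟨fun a b h => Or.inl (hF.f1 a b h), hF.f2, ?_⟩
    rintro a b (h | ⟨rfl, h⟩) hne
    · exact hF.f3 a b h hne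
    · exact (hT b h).1
  have hm := hmin _ _ hF'
  unfold fo at hm
  have g1 : M (fun a b => B a b ∨ (a = z ∧ T b)) = M B + S T := by
    rw [← sum_row z T]
    unfold M S
    rw [← Finset.sum_add_distrib]
    refine Finset.sum_congr rfl fun a _ => ?_
    rw [← Finset.sum_add_distrib]
    refine Finset.sum_congr rfl fun b _ => ?_
    by_cases h1 : B a b
    · have h2 : ¬ (a = z ∧ T b) := by rintro ⟨rfl, h2⟩; exact (hT b h2).2 h1
      rw [ii_pos (Or.inl h1), ii_pos h1, ii_neg h2]; norm_num
    · by_cases h2 : a = z ∧ T b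
      · rw [ii_pos (Or.inr h2), ii_neg h1, ii_pos h2]; norm_num
      · rw [ii_neg (by tauto), ii_neg h1, ii_neg h2]; norm_num
  have g2 : M (E N (fun a b => B a b ∨ (a = z ∧ T b))) =
      M (E N B) + S (fun v => NN N T v ∧ ¬ NN N (B z) v) := by
    rw [← sum_row z (fun v => NN N T v ∧ ¬ NN N (B z) v)]
    unfold M S
    rw [← Finset.sum_add_distrib]
    refine Finset.sum_congr rfl fun a _ => ?_
    rw [← Finset.sum_add_distrib]
    refine Finset.sum_congr rfl fun b _ => ?_
    have key : E N (fun a b => B a b ∨ (a = z ∧ T b)) a b ↔ E N B a b ∨ (a = z ∧ NN N T b) := by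
      constructor
      · rintro ⟨x, h | ⟨hz, h⟩, hn⟩
        · exact Or.inl ⟨x, h, hn⟩
        · exact Or.inr ⟨hz, x, h, hn⟩
      · rintro (⟨x, h, hn⟩ | ⟨hz, x, h, hn⟩)
        · exact ⟨x, Or.inl h, hn⟩
        · exact ⟨x, Or.inr ⟨hz, h⟩, hn⟩
    by_cases h1 : E N B a b
    · have h2 : ¬ (a = z ∧ NN N T b ∧ ¬ NN N (B z) b) := by
        rintro ⟨hz, _, h2⟩; exact h2 (hz ▸ h1)
      rw [ii_pos (key.2 (Or.inl h1)), ii_pos h1, ii_neg h2]; norm_num
    · by_cases h2 : a = z ∧ NN N T b
      · have h3 : a = z ∧ NN N T b ∧ ¬ NN N (B z) b := by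
          refine ⟨h2.1, h2.2, ?_⟩
          rw [← h2.1]; exact h1
        rw [ii_pos (key.2 (Or.inr h2)), ii_neg h1, ii_pos h3]; norm_num
      · have h3 : ¬ (a = z ∧ NN N T b ∧ ¬ NN N (B z) b) := fun h => h2 ⟨h.1, h.2.1⟩
        rw [ii_neg (fun h => (key.1 h).elim h1 h2), ii_neg h1, ii_neg h3]; norm_num
  rw [g1, g2] at hm
  linarith

theorem ch_of_min {N B U : V → V → Prop} (hF : Feas N B U)
    (hmin : ∀ B' U', Feas N B' U' → fo N B U ≤ fo N B' U') : CH N U B := by
  intro x T hT
  have hF' : Feas N B (fun a b => U a b ∧ ¬ (b = x ∧ T a)) := by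
    refine ⟨hF.f1, fun z b h => hF.f2 z b h.1, ?_⟩
    intro a b h hne
    refine ⟨hF.f3 a b h hne, ?_⟩
    rintro ⟨rfl, h2⟩
    exact (hT a h2).2 h
  have hm := hmin _ _ hF'
  unfold fo at hm
  have g1 : M (fun a b => U a b ∧ ¬ (b = x ∧ T a)) + S T = M U := by
    rw [← sum_col x T]
    unfold M S
    rw [← Finset.sum_add_distrib]
    refine Finset.sum_congr rfl fun a _ => ?_
    rw [← Finset.sum_add_distrib]
    refine Finset.sum_congr rfl fun b _ => ?_
    by_cases h2 : b = x ∧ T a
    · have h1 : U a b := by rw [h2.1]; exact (hT a h2.2).1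
      rw [ii_pos h1, ii_pos h2, ii_neg (fun h => h.2 h2)]; norm_num
    · by_cases h1 : U a b
      · rw [ii_pos h1, ii_neg h2, ii_pos ⟨h1, h2⟩]; norm_num
      · rw [ii_neg h1, ii_neg h2, ii_neg (fun h => h1 h.1)]; norm_num
  have g2 : M (A N (fun a b => U a b ∧ ¬ (b = x ∧ T a))) +
      S (fun z => NN N T z ∧ A N U z x) = M (A N U) := by
    rw [← sum_col x (fun z => NN N T z ∧ A N U z x)]
    unfold M S
    rw [← Finset.sum_add_distrib]
    refine Finset.sum_congr rfl fun a _ => ?_
    rw [← Finset.sum_add_distrib]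
    refine Finset.sum_congr rfl fun b _ => ?_
    have key : A N (fun a b => U a b ∧ ¬ (b = x ∧ T a)) a b ↔
        A N U a b ∧ ¬ (b = x ∧ NN N T a) := by
      constructor
      · intro h
        refine ⟨fun z' hz' => (h z' hz').1, ?_⟩
        rintro ⟨hb, z', hz', hn⟩
        exact (h z' hn).2 ⟨hb, hz'⟩
      · rintro ⟨h, h'⟩ z' hz'
        exact ⟨h z' hz', fun hh => h' ⟨hh.1, z', hh.2, hz'⟩⟩
    by_cases h1 : A N U a b
    · by_cases h2 : b = x ∧ NN N T a
      · have h3 : b = x ∧ NN N T a ∧ A N U a x := ⟨h2.1, h2.2, h2.1 ▸ h1⟩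
        rw [ii_pos h1, ii_pos h3, ii_neg (fun h => (key.1 h).2 h2)]; norm_num
      · have h3 : ¬ (b = x ∧ NN N T a ∧ A N U a x) := fun h => h2 ⟨h.1, h.2.1⟩
        rw [ii_pos h1, ii_neg h3, ii_pos (key.2 ⟨h1, h2⟩)]; norm_num
    · have h3 : ¬ (b = x ∧ NN N T a ∧ A N U a x) := by
        rintro ⟨hb, _, h⟩; exact h1 (hb ▸ h)
      rw [ii_neg h1, ii_neg h3, ii_neg (fun h => h1 (key.1 h).1)]; norm_num
  linarith

/-- first candidate relation -/
def Bs (N U : V → V → Prop) (a u : V) : Prop := E N (A N U) a u ∨ N a u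
/-- second candidate relation -/
def Us (N B : V → V → Prop) (z b : V) : Prop := ∀ z', N z' z → E N B z' b ∧ z' ≠ b
/-- candidate pair, first member -/
def Bc (N B U : V → V → Prop) (a b : V) : Prop := Bs N U a b ∧ (Us N B a b ∨ a = b)
/-- candidate pair, second member -/
def Uc (N B U : V → V → Prop) (a b : V) : Prop := Us N B a b ∨ (Bs N U a b ∧ a ≠ b)

section cand

variable {N B U : V → V → Prop}

theorem eau_irr (hF : Feas N B U) {z b : V} (h : E N (A N U) z b) : ¬ N b z := by
  obtain ⟨x, hx, hxb⟩ := h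
  intro hb
  exact hF.f2 b x (hx b hb) hxb

theorem us_irr {z b : V} (h : Us N B z b) : ¬ N b z := fun hb => (h b hb).2 rfl

theorem arc_us (hN : ∀ x, N x x) (ho : ∀ a b, N a b → N b a → a = b) (hF : Feas N B U)
    {a b : V} (h : N a b) (hne : a ≠ b) : Us N B a b := by
  intro z' hz'
  refine ⟨⟨a, hF.f1 _ _ hz', h⟩, ?_⟩
  rintro rfl
  exact hne (ho _ _ h hz')

theorem cand_feas (hN : ∀ x, N x x) (ho : ∀ a b, N a b → N b a → a = b) (hF : Feas N B U) :
    Feas N (Bc N B U) (Uc N B U) := by
  refine ⟨?_, ?_, ?_⟩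
  · intro a b h
    refine ⟨Or.inr h, ?_⟩
    by_cases hab : a = b
    · exact Or.inr hab
    · exact Or.inl (arc_us hN ho hF h hab)
  · rintro z b (h | ⟨h | h, hne⟩)
    · exact us_irr h
    · exact eau_irr hF h
    · intro hb
      exact hne (ho _ _ h hb)
  · rintro a b ⟨_, h | h⟩ hne
    · exact Or.inl h
    · exact absurd h hne

theorem cand_cost (hN : ∀ x, N x x) (ho : ∀ a b, N a b → N b a → a = b) (hF : Feas N B U) :
    fi N (Bc N B U) (Uc N B U) + M (KK N B U) + M (GG B U) ≤
      fo N B U + M (PP N B U) + M (QQ N B U) := by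
  unfold fi fo M S
  simp only [← Finset.sum_add_distrib, ← Finset.sum_sub_distrib]
  refine Finset.sum_le_sum fun a _ => Finset.sum_le_sum fun b _ => ?_
  -- pointwise inequalities
  have q1 : ii (Bc N B U a b) - ii (Uc N B U a b) ≤ ii (a = b) - ii (KK N B U a b) := by
    by_cases hab : a = b
    · subst hab
      have h1 : ¬ Uc N B U a a := by
        rintro (h | h)
        · exact us_irr h (hN a)
        · exact h.2 rfl
      have h2 : ¬ KK N B U a a := fun h => eau_irr hF h.1 (hN a)
      rw [ii_neg h1, ii_neg h2, ii_pos (rfl : a = a)]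
      have := ii_le_one (Bc N B U a a)
      linarith
    · rw [ii_neg hab]
      by_cases hk : KK N B U a b
      · have h1 : Uc N B U a b := Or.inr ⟨Or.inl hk.1, hab⟩
        have h2 : ¬ Bc N B U a b := by
          rintro ⟨_, h | h⟩
          · obtain ⟨z', hz', hne⟩ := hk.2
            exact hne (h z' hz').1
          · exact hab h
        rw [ii_pos h1, ii_neg h2, ii_pos hk]
      · rw [ii_neg hk]
        by_cases hb : Bc N B U a b
        · have h1 : Uc N B U a b := (cand_feas hN ho hF).f3 _ _ hb hab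
          rw [ii_pos h1, ii_pos hb]; norm_num
        · rw [ii_neg hb]
          have := ii_nonneg (Uc N B U a b)
          linarith
  have q2 : ii (a = b) + ii (A N U a b) - ii (PP N B U a b) ≤ ii (I N (Bc N B U) a b) := by
    by_cases hab : a = b
    · subst hab
      have h1 : ¬ A N U a a := fun h => hF.f2 _ _ (h a (hN a)) (hN a)
      have h2 : I N (Bc N B U) a a := fun v hv => (cand_feas hN ho hF).f1 _ _ hv
      rw [ii_neg h1, ii_pos h2, ii_pos (rfl : a = a)]
      have := ii_nonneg (PP N B U a a)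
      linarith
    · rw [ii_neg hab]
      by_cases hA : A N U a b
      · by_cases hP : PP N B U a b
        · rw [ii_pos hA, ii_pos hP]
          have := ii_nonneg (I N (Bc N B U) a b)
          linarith
        · have h2 : I N (Bc N B U) a b := by
            intro u hu
            refine ⟨Or.inl ⟨b, hA, hu⟩, Or.inl ?_⟩
            intro z' hz'
            refine ⟨⟨b, ?_, hu⟩, ?_⟩
            · by_contra hcon
              exact hP ⟨hA, z', hz', hcon⟩
            · rintro rfl
              exact eau_irr hF ⟨b, hA, hu⟩ hz'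
          rw [ii_pos hA, ii_neg hP, ii_pos h2]; norm_num
      · have h0 := ii_nonneg (PP N B U a b)
        have h1 := ii_nonneg (I N (Bc N B U) a b)
        rw [ii_neg hA]
        linarith
  have q3 : ii (J N (Uc N B U) a b) ≤ ii (E N B a b) - ii (a = b) + ii (QQ N B U a b) := by
    by_cases hab : a = b
    · subst hab
      have h1 : ¬ J N (Uc N B U) a a := by
        rintro ⟨y, hy, h⟩
        exact (cand_feas hN ho hF).f2 _ _ h hy
      have h2 : E N B a a := ⟨a, hF.f1 _ _ (hN a), hN a⟩
      rw [ii_neg h1, ii_pos h2, ii_pos (rfl : a = a)]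
      have := ii_nonneg (QQ N B U a a)
      linarith
    · rw [ii_neg hab]
      by_cases hJ : J N (Uc N B U) a b
      · have h3 : E N B a b ∨ QQ N B U a b := by
          obtain ⟨y, hy, h⟩ := hJ
          rcases h with h | ⟨h, hne⟩
          · exact Or.inl (h a hy).1
          · rcases h with ⟨x, hx, hxb⟩ | h
            · by_cases hE : E N B a b
              · exact Or.inl hE
              · exact Or.inr ⟨⟨x, hx a hy, hxb⟩, hE⟩
            · exact Or.inl ⟨y, hF.f1 _ _ hy, h⟩
        rw [ii_pos hJ]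
        rcases h3 with h3 | h3
        · rw [ii_pos h3]
          have := ii_nonneg (QQ N B U a b)
          linarith
        · rw [ii_pos h3]
          have := ii_nonneg (E N B a b)
          linarith
      · rw [ii_neg hJ]
        have h0 := ii_nonneg (QQ N B U a b)
        have h1 := ii_nonneg (E N B a b)
        linarith
  have q4 : ii (GG B U a b) - ii (a = b) ≤ ii (U a b) - ii (B a b) := by
    by_cases hab : a = b
    · subst hab
      have h1 : ¬ U a a := fun h => hF.f2 _ _ h (hN a)
      have h2 : ¬ GG B U a a := fun h => h1 h.1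
      have h3 : B a a := hF.f1 _ _ (hN a)
      rw [ii_neg h1, ii_neg h2, ii_pos h3, ii_pos (rfl : a = a)]
    · rw [ii_neg hab]
      by_cases hB : B a b
      · have h1 : U a b := hF.f3 _ _ hB hab
        have h2 : ¬ GG B U a b := fun h => h.2 hB
        rw [ii_pos h1, ii_pos hB, ii_neg h2]; norm_num
      · by_cases hU : U a b
        · rw [ii_pos hU, ii_neg hB]
          have := ii_le_one (GG B U a b)
          linarith
        · have h2 : ¬ GG B U a b := fun h => hU h.1
          rw [ii_neg hU, ii_neg hB, ii_neg h2]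
  linarith

/-- the inner minimum is at most the outer minimum -/
theorem inout (hN : ∀ x, N x x) (ho : ∀ a b, N a b → N b a → a = b) (hF : Feas N B U)
    (hmin : ∀ B' U', Feas N B' U' → fo N B U ≤ fo N B' U') :
    ∃ B' U', Feas N B' U' ∧ fi N B' U' ≤ fo N B U := by
  refine ⟨Bc N B U, Uc N B U, cand_feas hN ho hF, ?_⟩
  have h1 := cand_cost hN ho hF
  have h2 := star (rh_of_min hF hmin) (ch_of_min hF hmin)
  linarith

end cand

end Vale.Agent.P038.H853
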