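import Vale.Agent.P038.Defs

set_option autoImplicit false

/-! Seymour: the relation calculus and the comparison of the two cut values (all weights 1) -/

open Classical

namespace Vale.Agent.P038.H853

variable {V : Type*} [Fintype V]

/-- indicator -/
noncomputable def ii (p : Prop) : ℤ := if p then 1 else 0

theorem ii_nonneg (p : Prop) : 0 ≤ ii p := by unfold ii; split_ifs <;> norm_num
theorem ii_le_one (p : Prop) : ii p ≤ 1 := by unfold ii; split_ifs <;> norm_num
theorem ii_pos {p : Prop} (h : p) : ii p = 1 := by simp [ii, h]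
theorem ii_neg {p : Prop} (h : ¬ p) : ii p = 0 := by simp [ii, h]

/-- number of elements -/
noncomputable def S (p : V → Prop) : ℤ := ∑ v, ii (p v)

/-- number of pairs -/
noncomputable def M (R : V → V → Prop) : ℤ := ∑ a, S (R a)

theorem S_nonneg (p : V → Prop) : 0 ≤ S p := Finset.sum_nonneg fun _ _ => ii_nonneg _

theorem S_mono {p q : V → Prop} (h : ∀ v, p v → q v) : S p ≤ S q := by
  refine Finset.sum_le_sum fun v _ => ?_
  unfold ii
  by_cases hp : p v
  · simp [hp, h v hp]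
  · simp [hp]; split_ifs <;> norm_num

theorem S_le_add {p q r : V → Prop} (h : ∀ v, p v → q v ∨ r v) : S p ≤ S q + S r := by
  unfold S
  rw [← Finset.sum_add_distrib]
  refine Finset.sum_le_sum fun v _ => ?_
  unfold ii
  have := h v
  by_cases hp : p v <;> by_cases hq : q v <;> by_cases hr : r v <;> simp_all

theorem S_add_le {p q r : V → Prop} (h1 : ∀ v, p v → r v) (h2 : ∀ v, q v → r v)
    (h3 : ∀ v, p v → ¬ q v) : S p + S q ≤ S r := by
  unfold S
  rw [← Finset.sum_add_distrib]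
  refine Finset.sum_le_sum fun v _ => ?_
  unfold ii
  have a := h1 v
  have b := h2 v
  have c := h3 v
  by_cases hp : p v <;> by_cases hq : q v <;> by_cases hr : r v <;> simp_all

variable (N : V → V → Prop)

/-- closed neighbourhood of a set -/
def NN (T : V → Prop) (v : V) : Prop := ∃ x, T x ∧ N x v

/-- dilation of the rows -/
def E (R : V → V → Prop) (a u : V) : Prop := ∃ x, R a x ∧ N x u
/-- erosion of the rows -/
def I (R : V → V → Prop) (a x : V) : Prop := ∀ v, N x v → R a v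
/-- erosion of the columns -/
def A (R : V → V → Prop) (z b : V) : Prop := ∀ z', N z' z → R z' b
/-- dilation of the columns -/
def J (R : V → V → Prop) (x b : V) : Prop := ∃ y, N x y ∧ R y b

/-- feasible pairs -/
structure Feas (B U : V → V → Prop) : Prop where
  f1 : ∀ a b, N a b → B a b
  f2 : ∀ z b, U z b → ¬ N b z
  f3 : ∀ a b, B a b → a ≠ b → U a b

/-- inner cost -/
noncomputable def fi (B U : V → V → Prop) : ℤ := M B - M (I N B) + M (J N U) - M U
/-- outer cost -/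
noncomputable def fo (B U : V → V → Prop) : ℤ := M (E N B) - M B + M U - M (A N U)

section star

variable {N}
variable {B U : V → V → Prop}

/-- row Hall condition -/
def RH (N B U : V → V → Prop) : Prop := ∀ (z : V) (T : V → Prop), (∀ x, T x → U z x ∧ ¬ B z x) →
  S T ≤ S (fun v => NN N T v ∧ ¬ NN N (B z) v)
/-- column Hall condition -/
def CH (N U : V → V → Prop) (B : V → V → Prop) : Prop :=
  ∀ (x : V) (T : V → Prop), (∀ z, T z → U z x ∧ ¬ B z x) →
  S T ≤ S (fun z => NN N T z ∧ A N U z x)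

theorem stepA_aux (hR : RH N B U) (s : Finset V) : ∀ (T : V → Prop),
    (∀ x, T x → ∀ z ∈ s, U z x) →
    S T ≤ S (fun x => T x ∧ ∀ z ∈ s, B z x) +
      S (fun v => NN N T v ∧ ∃ z ∈ s, ¬ NN N (B z) v) := by
  induction s using Finset.induction_on with
  | empty =>
    intro T _
    have : S T ≤ S (fun x => T x ∧ ∀ z ∈ (∅ : Finset V), B z x) := S_mono fun v hv => ⟨hv, by simp⟩
    linarith [S_nonneg (fun v => NN N T v ∧ ∃ z ∈ (∅ : Finset V), ¬ NN N (B z) v)]
  | insert z1 s hz1 ih =>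
    intro T hT
    have h1 := ih (fun x => T x ∧ B z1 x) (fun x hx z hz => hT x hx.1 z (Finset.mem_insert_of_mem hz))
    have h2 := hR z1 (fun x => T x ∧ ¬ B z1 x)
      (fun x hx => ⟨hT x hx.1 z1 (Finset.mem_insert_self _ _), hx.2⟩)
    have h3 : S T ≤ S (fun x => T x ∧ B z1 x) + S (fun x => T x ∧ ¬ B z1 x) :=
      S_le_add fun v hv => by by_cases h : B z1 v <;> simp [hv, h]
    have h4 : S (fun x => (T x ∧ B z1 x) ∧ ∀ z ∈ s, B z x) ≤
        S (fun x => T x ∧ ∀ z ∈ insert z1 s, B z x) := S_mono fun v hv => ⟨hv.1.1, fun z hz => by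
          rcases Finset.mem_insert.1 hz with rfl | hz
          · exact hv.1.2
          · exact hv.2 z hz⟩
    have h5 : S (fun v => NN N (fun x => T x ∧ B z1 x) v ∧ ∃ z ∈ s, ¬ NN N (B z) v) +
        S (fun v => NN N (fun x => T x ∧ ¬ B z1 x) v ∧ ¬ NN N (B z1) v) ≤
        S (fun v => NN N T v ∧ ∃ z ∈ insert z1 s, ¬ NN N (B z) v) := by
      refine S_add_le ?_ ?_ ?_
      · rintro v ⟨⟨x, hx, hxv⟩, z, hz, h⟩
        exact ⟨⟨x, hx.1, hxv⟩, z, Finset.mem_insert_of_mem hz, h⟩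
      · rintro v ⟨⟨x, hx, hxv⟩, h⟩
        exact ⟨⟨x, hx.1, hxv⟩, z1, Finset.mem_insert_self _ _, h⟩
      · rintro v ⟨⟨x, hx, hxv⟩, _⟩ ⟨_, h⟩
        exact h ⟨x, hx.2, hxv⟩
    linarith

theorem stepA (hR : RH N B U) (z : V) (T : V → Prop)
    (hT : ∀ x, T x → A N U z x ∧ ∃ z', N z' z ∧ ¬ B z' x) :
    S T ≤ S (fun v => NN N T v ∧ ∃ z', N z' z ∧ ¬ NN N (B z') v) := by
  have h := stepA_aux (N := N) hR (Finset.univ.filter fun z' => N z' z) T (by
    intro x hx z' hz'
    exact (hT x hx).1 z' (by simpa using hz'))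
  have h0 : S (fun x => T x ∧ ∀ z' ∈ (Finset.univ.filter fun z' => N z' z), B z' x) ≤ 0 := by
    have : S (fun x => T x ∧ ∀ z' ∈ (Finset.univ.filter fun z' => N z' z), B z' x) ≤
        S (fun _ : V => False) := S_mono (by
      rintro x ⟨hx, h⟩
      obtain ⟨z', hz', hb⟩ := (hT x hx).2
      exact hb (h z' (by simpa using hz')))
    simpa [S, ii] using this
  have h1 : S (fun v => NN N T v ∧ ∃ z' ∈ (Finset.univ.filter fun z' => N z' z),
      ¬ NN N (B z') v) ≤ S (fun v => NN N T v ∧ ∃ z', N z' z ∧ ¬ NN N (B z') v) := S_mono (by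
    rintro v ⟨h, z', hz', hb⟩
    exact ⟨h, z', by simpa using hz', hb⟩)
  linarith

theorem stepB_aux (hC : CH N U B) (s : Finset V) : ∀ (T : V → Prop),
    (∀ z, T z → ∃ x ∈ s, U z x) → (∀ z, T z → ∀ x ∈ s, ¬ B z x) →
    S T ≤ S (fun z => NN N T z ∧ ∃ x ∈ s, A N U z x) := by
  induction s using Finset.induction_on with
  | empty =>
    intro T h _
    exact S_mono fun z hz => by simpa using h z hz
  | insert x1 s hx1 ih =>
    intro T h hb
    have h1 := ih (fun z => T z ∧ ¬ U z x1) (by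
      rintro z ⟨hz, hu⟩
      obtain ⟨x, hx, hux⟩ := h z hz
      rcases Finset.mem_insert.1 hx with rfl | hx
      · exact absurd hux hu
      · exact ⟨x, hx, hux⟩) (fun z hz x hx => hb z hz.1 x (Finset.mem_insert_of_mem hx))
    have h2 := hC x1 (fun z => T z ∧ U z x1)
      (fun z hz => ⟨hz.2, hb z hz.1 x1 (Finset.mem_insert_self _ _)⟩)
    have h3 : S T ≤ S (fun z => T z ∧ U z x1) + S (fun z => T z ∧ ¬ U z x1) :=
      S_le_add fun v hv => by by_cases h : U v x1 <;> simp [hv, h]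
    have h5 : S (fun z => NN N (fun z => T z ∧ U z x1) z ∧ A N U z x1) +
        S (fun z => NN N (fun z => T z ∧ ¬ U z x1) z ∧ ∃ x ∈ s, A N U z x) ≤
        S (fun z => NN N T z ∧ ∃ x ∈ insert x1 s, A N U z x) := by
      refine S_add_le ?_ ?_ ?_
      · rintro z ⟨⟨z', hz', hn⟩, h⟩
        exact ⟨⟨z', hz'.1, hn⟩, x1, Finset.mem_insert_self _ _, h⟩
      · rintro z ⟨⟨z', hz', hn⟩, x, hx, h⟩
        exact ⟨⟨z', hz'.1, hn⟩, x, Finset.mem_insert_of_mem hx, h⟩
      · rintro z ⟨_, h⟩ ⟨⟨z', hz', hn⟩, _⟩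
        exact hz'.2 (h z' hn)
    linarith

theorem stepB (hC : CH N U B) (u : V) (T : V → Prop)
    (hT : ∀ z, T z → E N U z u ∧ ¬ E N B z u) :
    S T ≤ S (fun z => NN N T z ∧ (E N (A N U) z u ∧ ∃ z', N z' z ∧ ¬ E N B z' u)) := by
  have h := stepB_aux (N := N) hC (Finset.univ.filter fun x => N x u) T (by
      intro z hz
      obtain ⟨x, hx, hn⟩ := (hT z hz).1
      exact ⟨x, by simpa using hn, hx⟩) (by
      intro z hz x hx hb
      exact (hT z hz).2 ⟨x, hb, by simpa using hx⟩)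
  refine h.trans (S_mono ?_)
  rintro z ⟨⟨z', hz', hn⟩, x, hx, ha⟩
  exact ⟨⟨z', hz', hn⟩, ⟨x, ha, by simpa using hx⟩, z', hn, (hT z' hz').2⟩

/-- value of a test set -/
noncomputable def val (N : V → V → Prop) (f W T : V → Prop) : ℤ :=
  S T - S (fun v => NN N T v ∧ ¬ f v ∧ ¬ W v)

theorem exists_opt (N : V → V → Prop) (g f W : V → Prop) :
    ∃ T : V → Prop, (∀ x, T x → g x) ∧ ∀ T' : V → Prop, (∀ x, T' x → g x) →
      val N f W T' ≤ val N f W T := by
  obtain ⟨T, hT, h⟩ := Set.exists_max_image {T : V → Prop | ∀ x, T x → g x} (val N f W)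
    (Set.toFinite _) ⟨fun _ => False, by simp⟩
  exact ⟨T, hT, h⟩

/-- the optimal test set -/
noncomputable def opt (N : V → V → Prop) (g f W : V → Prop) : V → Prop :=
  (exists_opt N g f W).choose

theorem opt_sub (N : V → V → Prop) (g f W : V → Prop) : ∀ x, opt N g f W x → g x :=
  (exists_opt N g f W).choose_spec.1

/-- the optimal value -/
noncomputable def mm (N : V → V → Prop) (g f W : V → Prop) : ℤ := val N f W (opt N g f W)

theorem le_mm (N : V → V → Prop) (g f W : V → Prop) {T : V → Prop} (h : ∀ x, T x → g x) :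
    val N f W T ≤ mm N g f W := (exists_opt N g f W).choose_spec.2 T h

theorem mm_nonneg (N : V → V → Prop) (g f W : V → Prop) : 0 ≤ mm N g f W := by
  have h := le_mm N g f W (T := fun _ => False) (by simp)
  have : val N f W (fun _ => False) = 0 := by simp [val, S, ii, NN]
  linarith

theorem mm_mono (N : V → V → Prop) (g f : V → Prop) {W W' : V → Prop} (h : ∀ v, W v → W' v) :
    mm N g f W ≤ mm N g f W' := by
  refine le_trans ?_ (le_mm N g f W' (opt_sub N g f W))
  unfold mm val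
  have : S (fun v => NN N (opt N g f W) v ∧ ¬ f v ∧ ¬ W' v) ≤
      S (fun v => NN N (opt N g f W) v ∧ ¬ f v ∧ ¬ W v) := S_mono (by
    rintro v ⟨a, b, c⟩
    exact ⟨a, b, fun h' => c (h v h')⟩)
  linarith

theorem mm_step (N : V → V → Prop) (g f : V → Prop) (k : V → Prop) (W : V → Prop) (u : V)
    (hk : ∀ T : V → Prop, (∀ x, T x → g x) → NN N T u → ¬ f u → k u) :
    mm N g f (fun v => W v ∨ v = u) - mm N g f W ≤ ii (k u) := by
  have h := le_mm N g f W (opt_sub N g f (fun v => W v ∨ v = u))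
  have h2 : mm N g f (fun v => W v ∨ v = u) ≤
      val N f W (opt N g f (fun v => W v ∨ v = u)) + ii (k u) := by
    unfold mm val
    have hh : S (fun v => NN N (opt N g f (fun v => W v ∨ v = u)) v ∧ ¬ f v ∧ ¬ W v) ≤
      S (fun v => NN N (opt N g f (fun v => W v ∨ v = u)) v ∧ ¬ f v ∧ ¬ (W v ∨ v = u)) +
        S (fun v => v = u ∧ k u) := S_le_add (by
      rintro v ⟨a, b, c⟩
      by_cases hv : v = u
      · subst hv
        exact Or.inr ⟨rfl, hk _ (opt_sub N g f _) a b⟩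
      · exact Or.inl ⟨a, b, by tauto⟩)
    have h3 : S (fun v => v = u ∧ k u) = ii (k u) := by
      unfold S
      rw [Finset.sum_eq_single u]
      · simp
      · intro b _ hb
        simp [ii, hb]
      · simp
    linarith
  linarith

theorem prop8 {p1 p2 p3 p4 p5 p6 p7 p8 : Prop} (e1 : p1 → p3) (e2 : p1 → ¬ p5 → p4)
    (e3 : p2 → p4 ∨ p3) (e4 : ¬ p5 → ¬ p6) (e5 : p8 → ¬ p5) :
    ii (p1 ∧ ¬ p6 ∧ ¬ p7) + ii (p2 ∧ ¬ p5 ∧ ¬ (p7 ∨ p8)) ≤
      ii (p3 ∧ ¬ p6 ∧ ¬ (p7 ∨ p8)) + ii (p4 ∧ ¬ p5 ∧ ¬ p7) := by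
  by_cases h7 : p7
  · simp [ii, h7]
  by_cases h8 : p8
  · have h5 := e5 h8
    have h6 := e4 h5
    by_cases h1 : p1
    · have h4 := e2 h1 h5
      simp [ii, h7, h8, h5, h6, h1, h4]
    · simp only [ii, h7, h8, h5, h6, h1]
      simp
      split_ifs <;> norm_num
  by_cases h5 : p5
  · by_cases h1 : p1
    · simp [ii, h7, h8, h5, h1, e1 h1]
    · simp [ii, h7, h8, h5, h1]
      split_ifs <;> norm_num
  have h6 := e4 h5
  by_cases h1 : p1
  · have h3 := e1 h1
    have h4 := e2 h1 h5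
    simp [ii, h7, h8, h5, h6, h1, h3, h4]
    split_ifs <;> norm_num
  by_cases h2 : p2
  · rcases e3 h2 with h4 | h3
    · simp [ii, h7, h8, h5, h6, h1, h2, h4]
      split_ifs <;> norm_num
    · simp [ii, h7, h8, h5, h6, h1, h2, h3]
      split_ifs <;> norm_num
  · simp [ii, h7, h8, h5, h6, h1, h2]
    split_ifs <;> norm_num

theorem mm_swap (N : V → V → Prop) (B U : V → V → Prop) {z' z : V} (hz : N z' z)
    {W : V → Prop} {u : V} (hu : ¬ NN N (B z') u) :
    mm N (fun x => A N U z x ∧ ∃ z', N z' z ∧ ¬ B z' x) (fun v => ∀ z', N z' z → NN N (B z') v)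
        (fun v => W v ∨ v = u) +
      mm N (fun x => U z' x ∧ ¬ B z' x) (NN N (B z')) W ≤
    mm N (fun x => A N U z x ∧ ∃ z', N z' z ∧ ¬ B z' x) (fun v => ∀ z', N z' z → NN N (B z') v) W +
      mm N (fun x => U z' x ∧ ¬ B z' x) (NN N (B z')) (fun v => W v ∨ v = u) := by
  set g : V → Prop := fun x => A N U z x ∧ ∃ z', N z' z ∧ ¬ B z' x with hg
  set f : V → Prop := fun v => ∀ z', N z' z → NN N (B z') v with hf
  set g' : V → Prop := fun x => U z' x ∧ ¬ B z' x with hg'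
  set T := opt N g f (fun v => W v ∨ v = u) with hT
  set T' := opt N g' (NN N (B z')) W with hT'
  have hTg : ∀ x, T x → g x := opt_sub _ _ _ _
  have hTg' : ∀ x, T' x → g' x := opt_sub _ _ _ _
  have h1 := le_mm N g f W (T := fun x => T x ∧ (B z' x ∨ T' x)) (fun x hx => hTg x hx.1)
  have h2 := le_mm N g' (NN N (B z')) (fun v => W v ∨ v = u)
    (T := fun x => T' x ∨ (T x ∧ ¬ B z' x)) (by
      rintro x (hx | ⟨hx, hb⟩)
      · exact hTg' x hx
      · exact ⟨(hTg x hx).1 z' hz, hb⟩)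
  refine le_trans ?_ (add_le_add h1 h2)
  unfold mm
  rw [← hT, ← hT']
  unfold val S
  have hw : ∑ v, ii (T v) + ∑ v, ii (T' v) = ∑ v, ii (T v ∧ (B z' v ∨ T' v)) +
      ∑ v, ii (T' v ∨ (T v ∧ ¬ B z' v)) := by
    rw [← Finset.sum_add_distrib, ← Finset.sum_add_distrib]
    refine Finset.sum_congr rfl fun v _ => ?_
    have := fun h => (hTg' v h).2
    unfold ii
    by_cases a : T v <;> by_cases b : T' v <;> by_cases c : B z' v <;> simp_all
  have hc : ∑ v, ii (NN N (fun x => T x ∧ (B z' x ∨ T' x)) v ∧ ¬ f v ∧ ¬ W v) +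
      ∑ v, ii (NN N (fun x => T' x ∨ (T x ∧ ¬ B z' x)) v ∧ ¬ NN N (B z') v ∧ ¬ (W v ∨ v = u)) ≤
      ∑ v, ii (NN N T v ∧ ¬ f v ∧ ¬ (W v ∨ v = u)) +
      ∑ v, ii (NN N T' v ∧ ¬ NN N (B z') v ∧ ¬ W v) := by
    rw [← Finset.sum_add_distrib, ← Finset.sum_add_distrib]
    refine Finset.sum_le_sum fun v _ => ?_
    have e1 : NN N (fun x => T x ∧ (B z' x ∨ T' x)) v → NN N T v := by
      rintro ⟨x, hx, hn⟩
      exact ⟨x, hx.1, hn⟩
    have e2 : NN N (fun x => T x ∧ (B z' x ∨ T' x)) v → ¬ NN N (B z') v → NN N T' v := by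
      rintro ⟨x, hx, hn⟩ hb
      rcases hx.2 with h | h
      · exact absurd ⟨x, h, hn⟩ hb
      · exact ⟨x, h, hn⟩
    have e3 : NN N (fun x => T' x ∨ (T x ∧ ¬ B z' x)) v → NN N T' v ∨ NN N T v := by
      rintro ⟨x, hx | hx, hn⟩
      · exact Or.inl ⟨x, hx, hn⟩
      · exact Or.inr ⟨x, hx.1, hn⟩
    have e4 : ¬ NN N (B z') v → ¬ f v := fun h h' => h (h' z' hz)
    have e5 : v = u → ¬ NN N (B z') v := by rintro rfl; exact hu
    exact prop8 e1 e2 e3 e4 e5
  linarith

end star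

end Vale.Agent.P038.H853
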