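import Vale.Agent.P038.H853.Inout

set_option autoImplicit false
set_option linter.unusedSectionVars false
set_option linter.unusedVariables false

/-! Seymour: the minimal counterexample -/

open Classical

namespace Vale.Agent.P038.H853

universe u

/-- second neighbours -/
def N2p {V : Type*} (arc : V → V → Prop) (v z : V) : Prop :=
  z ≠ v ∧ ¬ arc v z ∧ ∃ u, arc v u ∧ arc u z

/-- a counterexample -/
structure Good {V : Type*} [Fintype V] (arc : V → V → Prop) : Prop where
  irr : ∀ v, ¬ arc v v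
  asy : ∀ u v, arc u v → ¬ arc v u
  ce : ∀ v, S (N2p arc v) < S (arc v)

/-- closed neighbourhoods -/
def NA {V : Type*} (arc : V → V → Prop) (x v : V) : Prop := x = v ∨ arc x v

variable {V : Type u} [Fintype V]

/-- the boundary inequality in an arc minimal counterexample -/
theorem bdry {arc : V → V → Prop} (hg : Good arc)
    (hmin : ∀ arc' : V → V → Prop, (∀ u v, arc' u v → arc u v) → Good arc' →
      ∀ u v, arc u v → arc' u v)
    (X : V → Prop) (hX : ∃ x y, X x ∧ ¬ X y ∧ arc x y) :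
    S (fun v => NN (NA arc) (NN (NA arc) X) v ∧ ¬ NN (NA arc) X v) <
      S (fun v => NN (NA arc) X v ∧ ¬ X v) := by
  by_contra hcon
  push Not at hcon
  set L : V → Prop := fun v => NN (NA arc) X v ∧ ¬ X v with hL
  set d : (V → Prop) → ℤ := fun T => S (fun v => NN (NA arc) T v ∧ ¬ X v) - 2 * S T with hd
  have hNr : ∀ x, NA arc x x := fun x => Or.inl rfl
  have hLne : ∃ l, L l := by
    obtain ⟨x, y, hx, hy, hxy⟩ := hX
    exact ⟨y, ⟨x, hx, Or.inr hxy⟩, hy⟩
  have hdL : 0 ≤ d L := by
    have h1 : S L + S (fun v => NN (NA arc) (NN (NA arc) X) v ∧ ¬ NN (NA arc) X v) ≤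
        S (fun v => NN (NA arc) L v ∧ ¬ X v) := by
      refine S_add_le ?_ ?_ ?_
      · intro v hv
        exact ⟨⟨v, hv, hNr v⟩, hv.2⟩
      · rintro v ⟨⟨y, hy, hyv⟩, hv⟩
        have hXv : ¬ X v := fun h => hv ⟨v, h, hNr v⟩
        have hXy : ¬ X y := fun h => hv ⟨y, h, hyv⟩
        exact ⟨⟨y, ⟨hy, hXy⟩, hyv⟩, hXv⟩
      · rintro v hv ⟨_, h⟩
        exact h hv.1
    simp only [hd]
    linarith
  obtain ⟨T, ⟨hTL, hTp⟩, hTmin⟩ := Set.exists_min_image
    {T : V → Prop | (∀ x, T x → L x) ∧ ∃ l, L l ∧ ¬ T l} d (Set.toFinite _)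
    ⟨fun _ => False, by simp, by
      obtain ⟨l, hl⟩ := hLne
      exact ⟨l, hl, by simp⟩⟩
  have hd0 : d (fun _ => False) = 0 := by simp [hd, S, ii, NN]
  have hT0 : d T ≤ 0 := by
    rw [← hd0]
    refine hTmin _ ⟨by simp, ?_⟩
    obtain ⟨l, hl⟩ := hLne
    exact ⟨l, hl, by simp⟩
  have hkey : ∀ D : V → Prop, (∀ x, D x → L x ∧ ¬ T x) →
      2 * S D ≤ S (fun v => NN (NA arc) D v ∧ ¬ NN (NA arc) T v ∧ ¬ X v) := by
    intro D hD
    have h1 : d T ≤ d (fun x => T x ∨ D x) := by
      by_cases hp : ∃ l, L l ∧ ¬ (T l ∨ D l)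
      · refine hTmin _ ⟨?_, hp⟩
        rintro x (h | h)
        · exact hTL x h
        · exact (hD x h).1
      · have : (fun x => T x ∨ D x) = L := by
          funext x
          apply propext
          constructor
          · rintro (h | h)
            · exact hTL x h
            · exact (hD x h).1
          · intro h
            by_contra hn
            exact hp ⟨x, h, hn⟩
        rw [this]
        linarith
    have h2 : S T + S D ≤ S (fun x => T x ∨ D x) :=
      S_add_le (fun v h => Or.inl h) (fun v h => Or.inr h) (fun v h h' => (hD v h').2 h)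
    have h3 : S (fun v => NN (NA arc) (fun x => T x ∨ D x) v ∧ ¬ X v) ≤
        S (fun v => NN (NA arc) T v ∧ ¬ X v) +
        S (fun v => NN (NA arc) D v ∧ ¬ NN (NA arc) T v ∧ ¬ X v) := by
      refine S_le_add ?_
      rintro v ⟨⟨x, hx, hxv⟩, hv⟩
      by_cases hT : NN (NA arc) T v
      · exact Or.inl ⟨hT, hv⟩
      · rcases hx with hx | hx
        · exact absurd ⟨x, hx, hxv⟩ hT
        · exact Or.inr ⟨⟨x, hx, hxv⟩, hT, hv⟩
    simp only [hd] at h1
    linarith
  -- the modified graph
  set arc' : V → V → Prop := fun y z => arc y z ∧ ¬ (X y ∧ ¬ X z ∧ ¬ T z) with harc'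
  have hgood : Good arc' := by
    refine ⟨fun v h => hg.irr v h.1, fun u v h h' => hg.asy u v h.1 h'.1, ?_⟩
    intro y
    by_cases hy : X y
    · set D : V → Prop := fun z => arc y z ∧ ¬ X z ∧ ¬ T z with hDdef
      have hD := hkey D (by
        rintro x ⟨h1, h2, h3⟩
        exact ⟨⟨⟨y, hy, Or.inr h1⟩, h2⟩, h3⟩)
      set Ey : V → Prop := fun v => NN (NA arc) D v ∧ ¬ NN (NA arc) T v ∧ ¬ X v with hEy
      have h1 : S (arc y) ≤ S (arc' y) + S D := by
        refine S_le_add ?_
        intro v hv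
        by_cases h : X y ∧ ¬ X v ∧ ¬ T v
        · exact Or.inr ⟨hv, h.2.1, h.2.2⟩
        · exact Or.inl ⟨hv, h⟩
      have h2 : S (N2p arc' y) + S Ey ≤ S (fun z => N2p arc y z ∨ D z) := by
        refine S_add_le ?_ ?_ ?_
        · rintro z ⟨hne, hna, u, hyu, huz⟩
          by_cases h : arc y z
          · right
            by_contra hn
            exact hna ⟨h, fun hh => hn ⟨h, hh.2.1, hh.2.2⟩⟩
          · exact Or.inl ⟨hne, h, u, hyu.1, huz.1⟩
        · rintro z ⟨⟨x, hx, hxz⟩, hTz, hXz⟩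
          have hTz' : ¬ T z := fun h => hTz ⟨z, h, hNr z⟩
          by_cases h : arc y z
          · exact Or.inr ⟨h, hXz, hTz'⟩
          · left
            refine ⟨?_, h, x, hx.1, ?_⟩
            · rintro rfl
              exact hXz hy
            · rcases hxz with rfl | hxz
              · exact absurd hx.1 h
              · exact hxz
        · rintro z ⟨hne, hna, u, hyu, huz⟩ ⟨_, hTz, hXz⟩
          have hTz' : ¬ T z := fun h => hTz ⟨z, h, hNr z⟩
          by_cases hXu : X u
          · exact huz.2 ⟨hXu, hXz, hTz'⟩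
          · by_cases hTu : T u
            · exact hTz ⟨u, hTu, Or.inr huz.1⟩
            · exact hyu.2 ⟨hy, hXu, hTu⟩
      have h3 : S (fun z => N2p arc y z ∨ D z) ≤ S (N2p arc y) + S D :=
        S_le_add fun v h => h
      have h4 := hg.ce y
      have h5 := S_nonneg D
      linarith
    · have h1 : S (arc y) ≤ S (arc' y) := S_mono fun v hv => ⟨hv, fun h => hy h.1⟩
      have h2 : S (N2p arc' y) ≤ S (N2p arc y) := S_mono (by
        rintro z ⟨hne, hna, u, hyu, huz⟩
        exact ⟨hne, fun h => hna ⟨h, fun h => hy h.1⟩, u, hyu.1, huz.1⟩)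
      have h4 := hg.ce y
      linarith
  obtain ⟨l, ⟨⟨x, hx, hxl⟩, hXl⟩, hTl⟩ := hTp
  have hxl' : arc x l := by
    rcases hxl with rfl | h
    · exact absurd hx hXl
    · exact h
  exact (hmin arc' (fun u v h => h.1) hgood x l hxl').2 ⟨hx, hXl, hTl⟩

theorem S_sub {p q : V → Prop} (h : ∀ v, q v → p v) :
    S (fun v => p v ∧ ¬ q v) = S p - S q := by
  unfold S
  rw [← Finset.sum_sub_distrib]
  refine Finset.sum_congr rfl fun v _ => ?_
  unfold ii
  have := h v
  by_cases hp : p v <;> by_cases hq : q v <;> simp_all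

theorem M_mono {R R' : V → V → Prop} (h : ∀ a b, R a b → R' a b) : M R ≤ M R' :=
  Finset.sum_le_sum fun a _ => S_mono (h a)

theorem M_comm (R : V → V → Prop) : M R = ∑ b, S (fun a => R a b) := by
  unfold M S
  rw [Finset.sum_comm]

/-- the contradiction for an arc minimal, strong counterexample -/
theorem core {arc : V → V → Prop} (hg : Good arc) (a0 : V)
    (hmin : ∀ arc' : V → V → Prop, (∀ u v, arc' u v → arc u v) → Good arc' →
      ∀ u v, arc u v → arc' u v)
    (hst : ∀ X : V → Prop, (∃ x, X x) → (∃ x, ¬ X x) → ∃ x y, X x ∧ ¬ X y ∧ arc x y) : False := by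
  set N := NA arc with hNdef
  have hN : ∀ x, N x x := fun x => Or.inl rfl
  have ho : ∀ a b, N a b → N b a → a = b := by
    rintro a b (h | h) (h' | h')
    · exact h
    · exact h
    · exact h'.symm
    · exact absurd h' (hg.asy a b h)
  have hin : ∀ a, ∃ p, p ≠ a ∧ arc p a := by
    intro a
    have h1 : ∃ b, arc a b := by
      by_contra hn
      have h0 : S (arc a) = 0 := by
        unfold S
        refine Finset.sum_eq_zero fun v _ => ii_neg fun h => hn ⟨v, h⟩
      have := hg.ce a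
      have := S_nonneg (N2p arc a)
      linarith
    obtain ⟨b, hb⟩ := h1
    have hba : b ≠ a := by rintro rfl; exact hg.irr _ hb
    obtain ⟨x, y, hx, hy, hxy⟩ := hst (fun x => x ≠ a) ⟨b, hba⟩ ⟨a, by simp⟩
    have hy' : y = a := by simpa using hy
    subst hy'
    exact ⟨x, hx, hxy⟩
  -- minimisers
  have hne : ({p : (V → V → Prop) × (V → V → Prop) | Feas N p.1 p.2}).Nonempty := by
    refine ⟨(N, fun a b => N a b ∧ a ≠ b), ?_, ?_, ?_⟩
    · exact fun a b h => h
    · exact fun z b h h' => h.2 (ho _ _ h.1 h')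
    · exact fun a b h h' => ⟨h, h'⟩
  obtain ⟨⟨Bo, Uo⟩, hFo, hmo⟩ := Set.exists_min_image
    {p : (V → V → Prop) × (V → V → Prop) | Feas N p.1 p.2} (fun p => fo N p.1 p.2)
    (Set.toFinite _) hne
  obtain ⟨⟨Bi, Ui⟩, hFi, hmi⟩ := Set.exists_min_image
    {p : (V → V → Prop) × (V → V → Prop) | Feas N p.1 p.2} (fun p => fi N p.1 p.2)
    (Set.toFinite _) hne
  change Feas N Bo Uo at hFo
  change Feas N Bi Ui at hFi
  obtain ⟨B', U', hF', hle⟩ := inout hN ho hFo (fun B' U' h => hmo (B', U') h)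
  have h1 : fi N Bi Ui ≤ fi N B' U' := hmi (B', U') hF'
  -- the opened pair
  set B1 : V → V → Prop := E N (I N Bi) with hB1
  set U1 : V → V → Prop := A N (J N Ui) with hU1
  have hBB : ∀ a b, B1 a b → Bi a b := by
    rintro a b ⟨x, hx, hxb⟩
    exact hx b hxb
  have hUU : ∀ a b, Ui a b → U1 a b := fun a b h z' hz' => ⟨a, hz', h⟩
  have hF1 : Feas N B1 U1 := by
    refine ⟨?_, ?_, ?_⟩
    · intro a b h
      exact ⟨a, fun v hv => hFi.f1 _ _ hv, h⟩
    · intro z b h hb
      obtain ⟨y, hy, h'⟩ := h b hb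
      exact hFi.f2 _ _ h' hy
    · intro a b h hne
      exact hUU _ _ (hFi.f3 _ _ (hBB _ _ h) hne)
  have h2 : fo N Bo Uo ≤ fo N B1 U1 := hmo (B1, U1) hF1
  have hrow : ∀ a, S (E N B1 a) - S (B1 a) < S (B1 a) - S (I N Bi a) := by
    intro a
    obtain ⟨p, hpa, hp⟩ := hin a
    have hb := bdry hg hmin (I N Bi a) (hst _ ⟨a, fun v hv => hFi.f1 _ _ hv⟩ ⟨p, fun h =>
      hFi.f2 _ _ (hFi.f3 _ _ (h p (hN p)) hpa.symm) (Or.inr hp)⟩)
    have e1 : S (fun v => NN (NA arc) (NN (NA arc) (I N Bi a)) v ∧ ¬ NN (NA arc) (I N Bi a) v) =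
        S (E N B1 a) - S (B1 a) :=
      S_sub (p := NN (NA arc) (NN (NA arc) (I N Bi a))) (q := NN (NA arc) (I N Bi a))
        (fun v hv => ⟨v, hv, hN v⟩)
    have e2 : S (fun v => NN (NA arc) (I N Bi a) v ∧ ¬ I N Bi a v) =
        S (B1 a) - S (I N Bi a) :=
      S_sub (p := NN (NA arc) (I N Bi a)) (q := I N Bi a) (fun v hv => ⟨v, hv, hN v⟩)
    rw [e1, e2] at hb
    exact hb
  have hcolm : ∀ a, S (fun u => U1 u a) - S (fun u => A N U1 u a) <
      S (fun u => J N Ui u a) - S (fun u => U1 u a) := by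
    intro a
    obtain ⟨p, hpa, hp⟩ := hin a
    have hb := bdry hg hmin (fun x => ¬ J N Ui x a) (hst _
      ⟨a, by rintro ⟨y, hy, h⟩; exact hFi.f2 _ _ h hy⟩
      ⟨p, not_not.2 ⟨p, hN p, hFi.f3 _ _ (hFi.f1 _ _ (Or.inr hp)) hpa⟩⟩)
    have f1 : ∀ u, NN (NA arc) (fun x => ¬ J N Ui x a) u ↔ ¬ U1 u a := by
      intro u
      constructor
      · rintro ⟨x, hx, hxu⟩ h
        exact hx (h x hxu)
      · intro h
        by_contra hn
        exact h fun z' hz' => by
          by_contra hj
          exact hn ⟨z', hj, hz'⟩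
    have f1' : NN (NA arc) (fun x => ¬ J N Ui x a) = fun u => ¬ U1 u a :=
      funext fun u => propext (f1 u)
    have f2 : ∀ u, NN (NA arc) (fun u => ¬ U1 u a) u ↔ ¬ A N U1 u a := by
      intro u
      constructor
      · rintro ⟨x, hx, hxu⟩ h
        exact hx (h x hxu)
      · intro h
        by_contra hn
        exact h fun z' hz' => by
          by_contra hj
          exact hn ⟨z', hj, hz'⟩
    have f2' : NN (NA arc) (fun u => ¬ U1 u a) = fun u => ¬ A N U1 u a :=
      funext fun u => propext (f2 u)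
    rw [f1', f2'] at hb
    have e1 : S (fun v => ¬ A N U1 v a ∧ ¬ ¬ U1 v a) =
        S (fun u => U1 u a) - S (fun u => A N U1 u a) := by
      rw [← S_sub (p := fun u => U1 u a) (q := fun u => A N U1 u a) (fun v hv => hv v (hN v))]
      congr 1
      funext v
      apply propext
      tauto
    have e2 : S (fun v => ¬ U1 v a ∧ ¬ ¬ J N Ui v a) =
        S (fun u => J N Ui u a) - S (fun u => U1 u a) := by
      rw [← S_sub (p := fun u => J N Ui u a) (q := fun u => U1 u a) (fun v hv => hv v (hN v))]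
      congr 1
      funext v
      apply propext
      tauto
    rw [e1, e2] at hb
    exact hb
  have s1 : M (E N B1) - M B1 ≤ M B1 - M (I N Bi) := by
    unfold M
    rw [← Finset.sum_sub_distrib, ← Finset.sum_sub_distrib]
    exact Finset.sum_le_sum fun a _ => (hrow a).le
  have s2 : M U1 - M (A N U1) < M (J N Ui) - M U1 := by
    rw [M_comm U1, M_comm (A N U1), M_comm (J N Ui)]
    rw [← Finset.sum_sub_distrib, ← Finset.sum_sub_distrib]
    exact Finset.sum_lt_sum_of_nonempty ⟨a0, Finset.mem_univ _⟩ fun a _ => hcolm a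
  have m1 : M B1 ≤ M Bi := M_mono hBB
  have m2 : M Ui ≤ M U1 := M_mono hUU
  have hle' : fi N B' U' ≤ fo N Bo Uo := hle
  have e0 : fo N B1 U1 = M (E N B1) - M B1 + M U1 - M (A N U1) := rfl
  have e1 : fi N Bi Ui = M Bi - M (I N Bi) + M (J N Ui) - M Ui := rfl
  linarith

theorem S_subtype (X p : V → Prop) (h : ∀ v, p v → X v) :
    S (fun a : {x // X x} => p a) = S p := by
  unfold S
  have h1 : ∑ a : {x // X x}, ii (p a) = ∑ a ∈ Finset.univ.filter X, ii (p a) :=
    (Finset.sum_subtype (Finset.univ.filter X) (by simp) (fun a => ii (p a))).symm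
  rw [h1]
  refine Finset.sum_subset (Finset.subset_univ _) ?_
  intro x _ hx
  refine ii_neg fun hp => hx ?_
  simpa using h x hp

/-- there is no counterexample -/
theorem no_good : ∀ (n : ℕ) (V : Type u) [Fintype V], Fintype.card V = n → Nonempty V →
    ∀ arc : V → V → Prop, ¬ Good arc := by
  intro n
  induction n using Nat.strong_induction_on with
  | _ n ih =>
    intro V _ hn hne arc0 hg0
    have hst : ∀ arc : V → V → Prop, Good arc → ∀ X : V → Prop, (∃ x, X x) → (∃ x, ¬ X x) →
        ∃ x y, X x ∧ ¬ X y ∧ arc x y := by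
      intro arc hg X ⟨x0, hx0⟩ ⟨x1, hx1⟩
      by_contra hcon
      have hcl : ∀ x y, X x → arc x y → X y := by
        intro x y hx hxy
        by_contra hy
        exact hcon ⟨x, y, hx, hy, hxy⟩
      have hlt : Fintype.card {x // X x} < n := by
        rw [← hn]
        exact Fintype.card_subtype_lt (x := x1) hx1
      refine ih _ hlt {x // X x} rfl ⟨⟨x0, hx0⟩⟩ (fun a b => arc a b) ?_
      refine ⟨fun v => hg.irr v, fun u v => hg.asy u v, ?_⟩
      intro v
      have e1 : S (fun b : {x // X x} => arc v b) = S (arc v) :=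
        S_subtype X (arc v) (fun b hb => hcl _ _ v.2 hb)
      have e2 : S (N2p (fun a b : {x // X x} => arc a b) v) = S (N2p arc v) := by
        rw [← S_subtype X (N2p arc v) (by
          rintro z ⟨_, _, u, h1, h2⟩
          exact hcl _ _ (hcl _ _ v.2 h1) h2)]
        congr 1
        funext b
        apply propext
        constructor
        · rintro ⟨h1, h2, u, h3, h4⟩
          exact ⟨fun h => h1 (Subtype.ext h), h2, u, h3, h4⟩
        · rintro ⟨h1, h2, u, h3, h4⟩
          exact ⟨fun h => h1 (by rw [h]), h2, ⟨u, hcl _ _ v.2 h3⟩, h3, h4⟩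
      change S (N2p (fun a b : {x // X x} => arc a b) v) < S (fun b : {x // X x} => arc v b)
      rw [e1, e2]
      exact hg.ce v
    obtain ⟨arc, hg, hmin⟩ := Set.exists_min_image {arc : V → V → Prop | Good arc} M
      (Set.toFinite _) ⟨arc0, hg0⟩
    refine core hg hne.some ?_ (hst arc hg)
    intro arc' hsub hg' a b hab
    by_contra hn
    have h1 : M arc ≤ M arc' := hmin arc' hg'
    have h2 : M arc' < M arc := by
      refine Finset.sum_lt_sum (fun a _ => S_mono (hsub a)) ⟨a, Finset.mem_univ _, ?_⟩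
      refine Finset.sum_lt_sum (fun b _ => ?_) ⟨b, Finset.mem_univ _, ?_⟩
      · by_cases h : arc' a b
        · rw [ii_pos h, ii_pos (hsub _ _ h)]
        · rw [ii_neg h]; exact ii_nonneg _
      · rw [ii_neg hn, ii_pos hab]; norm_num
    linarith

/-- **Seymour's second neighbourhood conjecture** -/
theorem seymour {V : Type u} [Fintype V] [Nonempty V] (D : OGraph V) :
    ∃ v, (N1 D v).card ≤ (N2 D v).card := by
  by_contra hcon
  push Not at hcon
  refine no_good _ V rfl inferInstance D.arc ⟨D.loopless, D.asymm, ?_⟩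
  intro v
  have hc : ∀ p : V → Prop, S p = ((Finset.univ.filter p).card : ℤ) := by
    intro p
    unfold S ii
    rw [Finset.sum_boole]
  have h1 : S (D.arc v) = ((N1 D v).card : ℤ) := hc _
  have h2 : S (N2p D.arc v) = ((N2 D v).card : ℤ) := by
    rw [hc]
    congr 2
    ext x
    simp [N2p, mem_N2]
  rw [h1, h2]
  exact_mod_cast hcon v

end Vale.Agent.P038.H853
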