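import Vale.Agent.P038.H853.Rel

set_option autoImplicit false

/-! Seymour: the star inequality -/

open Classical

namespace Vale.Agent.P038.H853

variable {V : Type*} [Fintype V]

theorem tele (e : V ≃ Fin (Fintype.card V)) (f : ℕ → ℤ) :
    ∑ u : V, (f ((e u : ℕ) + 1) - f (e u : ℕ)) = f (Fintype.card V) - f 0 := by
  rw [Equiv.sum_comp e (fun i : Fin (Fintype.card V) => f ((i : ℕ) + 1) - f (i : ℕ)),
    Fin.sum_univ_eq_sum_range (fun k => f (k + 1) - f k), Finset.sum_range_sub]

/-- the set P -/
def PP (N B U : V → V → Prop) (z x : V) : Prop := A N U z x ∧ ∃ z', N z' z ∧ ¬ B z' x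
/-- the set Q -/
def QQ (N B U : V → V → Prop) (z u : V) : Prop := E N U z u ∧ ¬ E N B z u
/-- the set K -/
def KK (N B U : V → V → Prop) (z u : V) : Prop :=
  E N (A N U) z u ∧ ∃ z', N z' z ∧ ¬ E N B z' u
/-- the gap -/
def GG (B U : V → V → Prop) (z x : V) : Prop := U z x ∧ ¬ B z x

theorem mm_all_le (N : V → V → Prop) (g f W : V → Prop) : mm N g f W ≤ S g := by
  unfold mm val
  have h1 : S (opt N g f W) ≤ S g := S_mono (opt_sub N g f W)
  have h2 := S_nonneg (fun v => NN N (opt N g f W) v ∧ ¬ f v ∧ ¬ W v)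
  linarith

theorem le_mm_all (N : V → V → Prop) (g f W : V → Prop) (hW : ∀ v, W v) : S g ≤ mm N g f W := by
  have h := le_mm N g f W (T := g) (fun _ h => h)
  have h0 : S (fun v => NN N g v ∧ ¬ f v ∧ ¬ W v) = 0 := by
    simp [S, ii, hW]
  unfold val at h
  linarith

theorem star {N B U : V → V → Prop} (hR : RH N B U) (hC : CH N U B) :
    M (PP N B U) + M (QQ N B U) ≤ M (KK N B U) + M (GG B U) := by
  set e : V ≃ Fin (Fintype.card V) := Fintype.equivFin V with he
  set W : ℕ → V → Prop := fun k v => (e v : ℕ) < k with hWdef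
  set mG : V → ℕ → ℤ := fun z k => mm N (GG B U z) (NN N (B z)) (W k) with hmG
  set mP : V → ℕ → ℤ := fun z k => mm N (PP N B U z) (fun v => ∀ z', N z' z → NN N (B z') v) (W k)
    with hmP
  set eG : V → V → ℤ := fun z u => ii (QQ N B U z u) - (mG z ((e u : ℕ) + 1) - mG z (e u)) with heG
  set eP : V → V → ℤ := fun z u => ii (KK N B U z u) - (mP z ((e u : ℕ) + 1) - mP z (e u)) with heP
  have hWs : ∀ u : V, W ((e u : ℕ) + 1) = fun v => W (e u) v ∨ v = u := by
    intro u
    funext v
    apply propext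
    simp only [hWdef]
    constructor
    · intro h
      rcases Nat.lt_succ_iff_lt_or_eq.1 h with h | h
      · exact Or.inl h
      · exact Or.inr (e.injective (Fin.ext h))
    · rintro (h | rfl)
      · omega
      · omega
  have hW0 : ∀ v, ¬ W 0 v := by intro v; simp [hWdef]
  have hWn : ∀ v, W (Fintype.card V) v := by intro v; simp [hWdef]
  -- totals
  have tG : ∀ z, S (QQ N B U z) - S (GG B U z) ≤ ∑ u, eG z u := by
    intro z
    have h1 : ∑ u, eG z u = S (QQ N B U z) - (mG z (Fintype.card V) - mG z 0) := by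
      simp only [heG]
      rw [Finset.sum_sub_distrib, tele e (mG z)]
      rfl
    have h2 : mG z (Fintype.card V) ≤ S (GG B U z) := mm_all_le _ _ _ _
    have h3 : 0 ≤ mG z 0 := mm_nonneg _ _ _ _
    linarith
  have tP : ∀ z, ∑ u, eP z u ≤ S (KK N B U z) - S (PP N B U z) := by
    intro z
    have h1 : ∑ u, eP z u = S (KK N B U z) - (mP z (Fintype.card V) - mP z 0) := by
      simp only [heP]
      rw [Finset.sum_sub_distrib, tele e (mP z)]
      rfl
    have h2 : S (PP N B U z) ≤ mP z (Fintype.card V) := le_mm_all _ _ _ _ hWn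
    have h3 : mP z 0 ≤ 0 := by
      simp only [hmP]
      unfold mm
      set T := opt N (PP N B U z) (fun v => ∀ z', N z' z → NN N (B z') v) (W 0) with hT
      have hTs : ∀ x, T x → PP N B U z x := opt_sub _ _ _ _
      have h4 := stepA hR z T hTs
      have h5 : S (fun v => NN N T v ∧ ∃ z', N z' z ∧ ¬ NN N (B z') v) ≤
          S (fun v => NN N T v ∧ ¬ (∀ z', N z' z → NN N (B z') v) ∧ ¬ W 0 v) := S_mono (by
        rintro v ⟨a, z', b, c⟩
        exact ⟨a, fun h => c (h z' b), hW0 v⟩)
      unfold val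
      linarith
    linarith
  -- per column
  have hdG : ∀ z u, 0 ≤ mG z ((e u : ℕ) + 1) - mG z (e u) := by
    intro z u
    have : mG z (e u) ≤ mG z ((e u : ℕ) + 1) := mm_mono _ _ _ (by
      intro v hv
      simp only [hWdef] at hv ⊢
      omega)
    linarith
  have hcol : ∀ u, ∑ z, eG z u ≤ ∑ z, eP z u := by
    intro u
    set T : V → Prop := fun z => QQ N B U z u ∧ 1 ≤ eG z u with hT
    have c1 : ∑ z, eG z u ≤ S T := by
      refine Finset.sum_le_sum fun z _ => ?_
      have hd := hdG z u
      by_cases hq : QQ N B U z u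
      · by_cases h1 : 1 ≤ eG z u
        · have : ii (T z) = 1 := ii_pos ⟨hq, h1⟩
          rw [this]
          simp only [heG]
          have := ii_le_one (QQ N B U z u)
          linarith
        · have : ii (T z) = 0 := ii_neg (fun h => h1 h.2)
          rw [this]
          omega
      · have h0 := ii_nonneg (T z)
        have : eG z u ≤ 0 := by
          simp only [heG]
          rw [ii_neg hq]
          linarith
        linarith
    have c2 := stepB hC u T (fun z hz => hz.1)
    have c3 : S (fun z => NN N T z ∧ (E N (A N U) z u ∧ ∃ z', N z' z ∧ ¬ E N B z' u)) ≤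
        ∑ z, eP z u := by
      refine Finset.sum_le_sum fun z _ => ?_
      have hstep : mP z ((e u : ℕ) + 1) - mP z (e u) ≤ ii (KK N B U z u) := by
        simp only [hmP]
        rw [hWs u]
        refine mm_step N _ _ (KK N B U z) (W (e u)) u ?_
        intro T' hT' hn hf
        obtain ⟨x, hx, hxu⟩ := hn
        refine ⟨⟨x, (hT' x hx).1, hxu⟩, ?_⟩
        by_contra hcon
        exact hf fun z' hz' => by
          by_contra h2
          exact hcon ⟨z', hz', h2⟩
      by_cases h : NN N T z ∧ (E N (A N U) z u ∧ ∃ z', N z' z ∧ ¬ E N B z' u)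
      · rw [ii_pos h]
        obtain ⟨z', hz', hn⟩ := h.1
        have hk : KK N B U z u := h.2
        have hsw := mm_swap N B U hn (W := W (e u)) (u := u) hz'.1.2
        rw [← hWs u] at hsw
        have h1 : mP z ((e u : ℕ) + 1) + mG z' (e u) ≤ mP z (e u) + mG z' ((e u : ℕ) + 1) := hsw
        have h2 : 1 ≤ eG z' u := hz'.2
        simp only [heG] at h2
        simp only [heP]
        rw [ii_pos hk]
        rw [ii_pos hz'.1] at h2
        linarith
      · rw [ii_neg h]
        simp only [heP]
        linarith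
    linarith
  have f1 : M (QQ N B U) - M (GG B U) ≤ ∑ z, ∑ u, eG z u := by
    unfold M
    rw [← Finset.sum_sub_distrib]
    exact Finset.sum_le_sum fun z _ => tG z
  have f2 : ∑ z, ∑ u, eP z u ≤ M (KK N B U) - M (PP N B U) := by
    unfold M
    rw [← Finset.sum_sub_distrib]
    exact Finset.sum_le_sum fun z _ => tP z
  have f3 : ∑ z, ∑ u, eG z u ≤ ∑ z, ∑ u, eP z u := by
    rw [Finset.sum_comm, Finset.sum_comm (f := eP)]
    exact Finset.sum_le_sum fun u _ => hcol u
  linarith

end Vale.Agent.P038.H853
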